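import Vale.Agent.P011.D4Z.Defs
import Vale.Agent.P011.D4X.H69.NearX

/-!
Block D4Z: the induction over the bad places.
-/

open Topology NumberField

set_option linter.unusedSectionVars false

namespace Vale.Agent.P011.D4Z.H862

open Vale.Agent.P011.MPQ Vale.Agent.P011.D4 Vale.Agent.P011.D4.Oct Vale.Agent.P011.D4X
open scoped ComplexConjugate

section cjg

variable {k E : Type} [Field k] [Field E] [Algebra k E] {a b c : kˣ}

/-- The matrices at conjugate embeddings. -/
theorem clg_conj {S : Set (E →+* ℂ)} {G : Subgroup (OctL E a b c ≃ₗ[E] OctL E a b c)}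
    {g : OctL E a b c ≃ₗ[E] OctL E a b c} {Y : S → Matrix (Fin 8) (Fin 8) ℂ}
    (hY : Y ∈ clg S G g) {V V' : S} (hV : ∀ x, V'.1 x = conj (V.1 x)) :
    Y V' = (Y V).map conj := by
  have hc : IsClosed {Y : S → Matrix (Fin 8) (Fin 8) ℂ | Y V' = (Y V).map conj} :=
    isClosed_eq (continuous_apply V')
      ((continuous_apply V).matrix_map Complex.continuous_conj)
  refine closure_minimal ?_ hc hY
  rintro _ ⟨z, -, rfl⟩
  ext i j
  exact hV _

end cjg

section orb

variable {k L E : Type} [Field k] [NumberField k] [Field L] [Field E] [Algebra k L] [Algebra k E]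
  [Algebra L E] [IsScalarTower k L E] [NeZero (2 : E)] {ρ σ : E ≃ₐ[k] E} {ρL : L ≃ₐ[k] L} {α : E}
  {a b c : kˣ} {q : Lˣ} (H : Hy ρ σ ρL α a b c q)

include H

theorem finrank_six : Module.finrank k E = 6 := by
  have h1 := Module.finrank_mul_finrank k L E
  rw [H.h3, H.h2] at h1
  exact h1.symm

/-- The six embeddings over one embedding of `k`. -/
theorem emb_orbit [Algebra k ℂ] (W V : E →ₐ[k] ℂ) :
    ∃ U : E →ₐ[k] ℂ, (U = W ∨ U = cmp W ρ ∨ U = cmp (cmp W ρ) ρ) ∧ (V = U ∨ V = cmp U σ) := by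
  have hfin : FiniteDimensional k E := Module.finite_of_finrank_pos (by
    rw [finrank_six H]; norm_num)
  have hα0 : α ≠ 0 := by
    intro h0
    have h1 := H.α2
    rw [h0, mul_zero] at h1
    exact a.ne_zero ((map_eq_zero _).1 h1.symm)
  have h2 : (2 : E) ≠ 0 := NeZero.ne _
  have hne := rho_ne H
  obtain ⟨x, hx⟩ : ∃ x, ρ x ≠ x := by
    by_contra hcon
    push Not at hcon
    exact hne (AlgEquiv.ext hcon)
  have hx2 : ρ (ρ x) ≠ x := by
    intro h0
    have h3 := H.ρ3 x
    rw [h0] at h3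
    exact hx h3
  have hx3 : ρ (ρ x) ≠ ρ x := fun h0 => hx (ρ.injective h0)
  let u : Fin 3 → (E →ₐ[k] ℂ) := ![W, cmp W ρ, cmp (cmp W ρ) ρ]
  let f : Fin 3 × Fin 2 → (E →ₐ[k] ℂ) := fun p => if p.2 = 0 then u p.1 else cmp (u p.1) σ
  have hα : ∀ i, u i α = W α := by
    intro i
    fin_cases i
    · rfl
    · change W (ρ α) = W α
      rw [H.ρα]
    · change W (ρ (ρ α)) = W α
      rw [H.ρα, H.ρα]
  have hneg : W (-α) ≠ W α := by
    intro h0
    have h3 := W.injective h0
    apply hα0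
    have h4 : (2 : E) * α = 0 := by linear_combination -h3
    exact (mul_eq_zero.1 h4).resolve_left h2
  have hu : Function.Injective u := by
    have key : ∀ i j, u i = u j → i = j := by
      intro i j hij
      have h3 := congrArg (fun F : E →ₐ[k] ℂ => F x) hij
      fin_cases i <;> fin_cases j
      · rfl
      · exact absurd (W.injective h3).symm hx
      · exact absurd (W.injective h3).symm hx2
      · exact absurd (W.injective h3) hx
      · rfl
      · exact absurd (W.injective h3).symm hx3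
      · exact absurd (W.injective h3) hx2
      · exact absurd (W.injective h3) hx3
      · rfl
    exact fun i j => key i j
  have hf : Function.Injective f := by
    rintro ⟨i, m⟩ ⟨j, n⟩ h0
    have h3 := congrArg (fun F : E →ₐ[k] ℂ => F α) h0
    have e1 : ∀ i, cmp (u i) σ α = W (-α) := by
      intro i
      change u i (σ α) = _
      rw [H.σα, map_neg, hα, map_neg]
    by_cases hm : m = 0 <;> by_cases hn : n = 0
    · have h4 : u i = u j := by
        simpa only [f, hm, hn, if_true] using h0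
      rw [hu h4, hm, hn]
    · exfalso
      have h4 : u i α = cmp (u j) σ α := by
        simpa only [f, hm, if_true, if_neg hn] using h3
      rw [hα, e1] at h4
      exact hneg h4.symm
    · exfalso
      have h4 : cmp (u i) σ α = u j α := by
        simpa only [f, hn, if_true, if_neg hm] using h3
      rw [hα, e1] at h4
      exact hneg h4
    · have h4 : cmp (u i) σ = cmp (u j) σ := by
        simpa only [f, if_neg hm, if_neg hn] using h0
      have h5 : u i = u j := by
        apply AlgHom.ext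
        intro y
        have h6 := congrArg (fun F : E →ₐ[k] ℂ => F (σ y)) h4
        change u i (σ (σ y)) = u j (σ (σ y)) at h6
        rwa [H.σ2] at h6
      have h7 : m = n := by
        fin_cases m <;> fin_cases n
        · rfl
        · exact absurd rfl hm
        · exact absurd rfl hn
        · rfl
      rw [hu h5, h7]
  have hcard : Fintype.card (Fin 3 × Fin 2) = Fintype.card (E →ₐ[k] ℂ) := by
    rw [AlgHom.card, finrank_six H]
    rfl
  obtain ⟨⟨i, m⟩, him⟩ := ((Fintype.bijective_iff_injective_and_card f).2 ⟨hf, hcard⟩).2 V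
  refine ⟨u i, ?_, ?_⟩
  · fin_cases i
    · exact Or.inl rfl
    · exact Or.inr (Or.inl rfl)
    · exact Or.inr (Or.inr rfl)
  · by_cases hm : m = 0
    · left
      rw [← him]
      simp only [f, hm, if_true]
    · right
      rw [← him]
      simp only [f, if_neg hm]

/-- The place of type one in an orbit. -/
theorem exists_type_one {V : E →+* ℂ} (hV : V ∈ Bd ρ σ q) :
    ∃ W ∈ Bd ρ σ q, W.comp (algebraMap k E) = V.comp (algebraMap k E) ∧
      (W (algebraMap L E q)).re < 0 ∧ 0 < (W (ρ (algebraMap L E q))).re ∧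
      (W (ρ (ρ (algebraMap L E q)))).re < 0 := by
  have hs : ∀ x, σ x = x → ∃ r : ℝ, V x = r := by
    intro x hx
    exact ⟨(V x).re, Complex.ext rfl (by rw [Bd_im hV hx, Complex.ofReal_im])⟩
  set t := algebraMap L E q with ht
  have h0 : σ t = t := H.σL _
  have h1 : σ (ρ t) = ρ t := by rw [H.comm, h0]
  have h2 : σ (ρ (ρ t)) = ρ (ρ t) := by rw [H.comm, h1]
  obtain ⟨r0, e0⟩ := hs _ h0
  obtain ⟨r1, e1⟩ := hs _ h1
  obtain ⟨r2, e2⟩ := hs _ h2
  have hN : r0 * r1 * r2 = 1 := by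
    have h3 := congrArg (algebraMap L E) H.hq
    rw [map_mul, map_mul, ← H.ρL', ← H.ρL', ← H.ρL', map_one] at h3
    have h4 := congrArg V h3
    rw [map_mul, map_mul, map_one] at h4
    rw [← ht, e0, e1, e2] at h4
    exact_mod_cast h4
  have hb := hV.2
  rw [← ht, e0, e1, e2, Complex.ofReal_re, Complex.ofReal_re, Complex.ofReal_re] at hb
  have n0 : r0 ≠ 0 := by rintro rfl; simp at hN
  have n1 : r1 ≠ 0 := by rintro rfl; simp at hN
  have n2 : r2 ≠ 0 := by rintro rfl; simp at hN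
  have c1 := Bd_rho H V hV
  have c2 := Bd_rho H _ c1
  have k1 : ∀ W : E →+* ℂ, (W.comp (ρ : E →+* E)).comp (algebraMap k E) =
      W.comp (algebraMap k E) := by
    intro W
    ext x
    change W (ρ (algebraMap k E x)) = W (algebraMap k E x)
    rw [AlgEquiv.commutes]
  rcases lt_or_gt_of_ne n0 with g0 | g0 <;> rcases lt_or_gt_of_ne n1 with g1 | g1 <;>
    rcases lt_or_gt_of_ne n2 with g2 | g2
  · exfalso
    have : r0 * r1 * r2 < 0 := mul_neg_of_pos_of_neg (mul_pos_of_neg_of_neg g0 g1) g2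
    linarith
  · -- signs `- - +`: take `V ∘ ρ`
    refine ⟨_, c1, k1 V, ?_, ?_, ?_⟩
    · change (V (ρ t)).re < 0
      rw [e1, Complex.ofReal_re]; exact g1
    · change 0 < (V (ρ (ρ t))).re
      rw [e2, Complex.ofReal_re]; exact g2
    · change (V (ρ (ρ (ρ t)))).re < 0
      rw [H.ρ3, e0, Complex.ofReal_re]; exact g0
  · -- signs `- + -`
    refine ⟨V, hV, rfl, ?_, ?_, ?_⟩
    · rw [e0, Complex.ofReal_re]; exact g0
    · rw [e1, Complex.ofReal_re]; exact g1
    · rw [e2, Complex.ofReal_re]; exact g2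
  · exfalso
    have : r0 * r1 * r2 < 0 := mul_neg_of_neg_of_pos (mul_neg_of_neg_of_pos g0 g1) g2
    linarith
  · -- signs `+ - -`: take `V ∘ ρ ∘ ρ`
    refine ⟨_, c2, by rw [k1, k1], ?_, ?_, ?_⟩
    · change (V (ρ (ρ t))).re < 0
      rw [e2, Complex.ofReal_re]; exact g2
    · change 0 < (V (ρ (ρ (ρ t)))).re
      rw [H.ρ3, e0, Complex.ofReal_re]; exact g0
    · change (V (ρ (ρ (ρ (ρ t))))).re < 0
      rw [H.ρ3, e1, Complex.ofReal_re]; exact g1
  · exfalso
    have : r0 * r1 * r2 < 0 := mul_neg_of_neg_of_pos (mul_neg_of_pos_of_neg g0 g1) g2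
    linarith
  · exfalso
    have : r0 * r1 * r2 < 0 := mul_neg_of_pos_of_neg (mul_pos g0 g1) g2
    linarith
  · exact absurd ⟨g0, g1, g2⟩ hb

/-- **The induction over the places.** -/
theorem outer {R : Subgroup (OctL E a b c ≃ₗ[E] OctL E a b c)}
    {g : OctL E a b c ≃ₗ[E] OctL E a b c}
    (hone : ∀ (_ : Algebra k ℂ) (W : E →ₐ[k] ℂ) (hW : (W : E →+* ℂ) ∈ Bd ρ σ q)
      (hW' : (cmp W ρ : E →+* ℂ) ∈ Bd ρ σ q) (hW'' : (cmp (cmp W ρ) ρ : E →+* ℂ) ∈ Bd ρ σ q),
      (W (algebraMap L E q)).re < 0 → 0 < (W (ρ (algebraMap L E q))).re →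
      ∀ Y ∈ clg (Bd ρ σ q) R g, ∃ Y' ∈ clg (Bd ρ σ q) R g, Y' ⟨W, hW⟩ = 1 ∧
        Y' ⟨cmp W ρ, hW'⟩ = 1 ∧ Y' ⟨cmp (cmp W ρ) ρ, hW''⟩ = 1 ∧
        ∀ V : Bd ρ σ q, V.1.comp (algebraMap k E) ≠ algebraMap k ℂ → Y' V = Y V)
    {Y0 : Bd ρ σ q → Matrix (Fin 8) (Fin 8) ℂ} (hY0 : Y0 ∈ clg (Bd ρ σ q) R g) :
    (1 : Bd ρ σ q → Matrix (Fin 8) (Fin 8) ℂ) ∈ clg (Bd ρ σ q) R g := by
  classical
  have key : ∀ T : Finset (k →+* ℂ), ∃ Y ∈ clg (Bd ρ σ q) R g,
      ∀ V : Bd ρ σ q, V.1.comp (algebraMap k E) ∈ T → Y V = 1 := by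
    intro T
    induction T using Finset.induction_on with
    | empty => exact ⟨Y0, hY0, fun V hV => absurd hV (Finset.notMem_empty _)⟩
    | insert τ T hτ ih =>
      obtain ⟨Y, hY, hY1⟩ := ih
      by_cases hex : ∃ V : Bd ρ σ q, V.1.comp (algebraMap k E) = τ
      · obtain ⟨⟨V0, hV0⟩, hV0τ⟩ := hex
        obtain ⟨W0, hW0, hW0τ, g0, g1, -⟩ := exists_type_one H hV0
        have hτ0 : W0.comp (algebraMap k E) = τ := hW0τ.trans hV0τ
        let iA : Algebra k ℂ := τ.toAlgebra
        let W : E →ₐ[k] ℂ := ⟨W0, fun x => RingHom.congr_fun hτ0 x⟩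
        have hWc : (W : E →+* ℂ) = W0 := rfl
        have hW : (W : E →+* ℂ) ∈ Bd ρ σ q := by rw [hWc]; exact hW0
        have hW' : (cmp W ρ : E →+* ℂ) ∈ Bd ρ σ q := Bd_rho H W0 hW0
        have hW'' : (cmp (cmp W ρ) ρ : E →+* ℂ) ∈ Bd ρ σ q := Bd_rho H _ (Bd_rho H W0 hW0)
        obtain ⟨Y', hY', y0, y1, y2, y3⟩ := hone iA W hW hW' hW'' g0 g1 Y hY
        refine ⟨Y', hY', ?_⟩
        rintro ⟨V, hV⟩ hVT
        by_cases hVτ : V.comp (algebraMap k E) = τ
        · let V1 : E →ₐ[k] ℂ := ⟨V, fun x => RingHom.congr_fun hVτ x⟩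
          obtain ⟨U, hU, hVU⟩ := emb_orbit H W V1
          have hUB : ∃ hU' : (U : E →+* ℂ) ∈ Bd ρ σ q, Y' ⟨U, hU'⟩ = 1 := by
            rcases hU with rfl | rfl | rfl
            · exact ⟨hW, y0⟩
            · exact ⟨hW', y1⟩
            · exact ⟨hW'', y2⟩
          obtain ⟨hU1, hU2⟩ := hUB
          rcases hVU with h5 | h5
          · have h6 : V = (U : E →+* ℂ) := by
              rw [← h5]
              rfl
            subst h6
            exact hU2
          · have h6 : ∀ x, V x = conj (U x) := by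
              intro x
              have h7 : V x = V1 x := rfl
              rw [h7, h5]
              exact hU1.1 x
            have h8 := clg_conj hY' (V := ⟨U, hU1⟩) (V' := ⟨V, hV⟩) h6
            rw [h8, hU2]
            ext i j
            rw [Matrix.map_apply, Matrix.one_apply]
            split_ifs <;> simp
        · rw [y3 ⟨V, hV⟩ hVτ]
          exact hY1 ⟨V, hV⟩ ((Finset.mem_insert.1 hVT).resolve_left hVτ)
      · refine ⟨Y, hY, fun V hV => ?_⟩
        rcases Finset.mem_insert.1 hV with h3 | h3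
        · exact absurd ⟨V, h3⟩ hex
        · exact hY1 V h3
  obtain ⟨Y, hY, hY1⟩ := key Finset.univ
  have h2 : Y = 1 := funext fun V => hY1 V (Finset.mem_univ _)
  rwa [h2] at hY

end orb

end Vale.Agent.P011.D4Z.H862
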